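import Vale.Agent.P243.Half.Example

/-!
A convex body in space with a cylinder covering of directionwise relative area below one half.
-/

namespace Vale.Agent.Results.P243.CodimOneConjectureFails

open Vale.Agent.P243
open scoped InnerProductSpace

theorem result :
    ∃ (m : ℕ) (K : Set R3) (u : Fin m → R3) (B : Fin m → Set R3),
      Convex ℝ K ∧ IsCompact K ∧ (interior K).Nonempty ∧ (∀ i, ‖u i‖ = 1) ∧
      (∀ i, MeasurableSet (B i)) ∧ (∀ i, ∀ b ∈ B i, ⟪u i, b⟫_ℝ = 0) ∧
      K ⊆ ⋃ i, cylinder (u i) (B i) ∧
      ∑ i, planeArea (u i) (B i) / planeArea (u i) (planeProj (u i) '' K) ≤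
        ENNReal.ofReal (247 / 500) :=
  ⟨10, Half.tetra, fun i => Half.dir (Half.axes i),
    fun i => Half.base (Half.axes i) (Half.rowA i) (Half.rowB i) (Half.shapes i),
    Half.tetra_convex, Half.tetra_compact, Half.tetra_interior,
    fun i => Half.dir_norm (Half.admissible i), Half.measurable_base,
    fun _ _ hb => hb.1, Half.covers, Half.relative_sum_le⟩

end Vale.Agent.Results.P243.CodimOneConjectureFails
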