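import Vale.Agent.P243.Coplanar

/-!
Bang's half-area bound for coverings by cylinders with axes parallel to a common plane.
-/

namespace Vale.Agent.Results.P243.CoplanarHalfArea

open Vale.Agent.P243
open scoped InnerProductSpace

theorem result (m : ℕ) (K : Set R3) (hK : Convex ℝ K) (hKc : IsCompact K)
    (hKi : (interior K).Nonempty) (e : R3) (he : ‖e‖ = 1) (u : Fin m → R3)
    (hu : ∀ i, ‖u i‖ = 1) (hue : ∀ i, ⟪u i, e⟫_ℝ = 0) (B : Fin m → Set R3)
    (hB : ∀ i, MeasurableSet (B i)) (hBperp : ∀ i, ∀ b ∈ B i, ⟪u i, b⟫_ℝ = 0)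
    (hcov : K ⊆ ⋃ i, cylinder (u i) (B i)) :
    minProjArea K / 2 ≤ ∑ i, planeArea (u i) (B i) :=
  half_area_of_coplanar_axes K hK hKc hKi e he u hu hue B hB hBperp hcov

end Vale.Agent.Results.P243.CoplanarHalfArea
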