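import Vale.Agent.P243.Gap.Main

/-!
The directionwise relative area of every cylinder covering exceeds one third by an absolute amount.
-/

namespace Vale.Agent.Results.P243.RelativeAreaGap

open Vale.Agent.P243
open scoped InnerProductSpace

theorem result (m : ℕ) (K : Set R3) (hK : Convex ℝ K) (hKc : IsCompact K)
    (hKi : (interior K).Nonempty) (u : Fin m → R3) (hu : ∀ i, ‖u i‖ = 1) (B : Fin m → Set R3)
    (hB : ∀ i, MeasurableSet (B i)) (hBperp : ∀ i, ∀ b ∈ B i, ⟪u i, b⟫_ℝ = 0)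
    (hcov : K ⊆ ⋃ i, cylinder (u i) (B i)) :
    ENNReal.ofReal (1 / 3 + 1 / 10 ^ 85) ≤
        ∑ i, planeArea (u i) (B i) / planeArea (u i) (planeProj (u i) '' K) ∧
      ENNReal.ofReal (1 / 3 + 1 / 10 ^ 85) * minProjArea K ≤ ∑ i, planeArea (u i) (B i) :=
  ⟨Gap.relative_gap m K hK hKc hKi u hu B hB hBperp hcov,
    Gap.area_gap m K hK hKc hKi u hu B hB hBperp hcov⟩

end Vale.Agent.Results.P243.RelativeAreaGap
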