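import Vale.Agent.P243.Sym.Main
import Vale.Agent.P243.SymHalf.Main
import Mathlib.Analysis.Real.Pi.Bounds

/-!
Cylinder coverings of centrally symmetric bodies: Bang's half-area bound holds, with the constant
`π / (4 √2) > 1/2`, and the relative area is at least five twelfths.
-/

namespace Vale.Agent.Results.P243.SymmetricBodies

open Vale.Agent.P243
open scoped InnerProductSpace Real

theorem half_lt_const : (1 / 2 : ℝ) < π / (4 * Real.sqrt 2) := by
  have h2 : Real.sqrt 2 < 3 / 2 := by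
    rw [Real.sqrt_lt' (by norm_num)]; norm_num
  have h0 : 0 < Real.sqrt 2 := by positivity
  rw [lt_div_iff₀ (by positivity)]
  linarith [Real.pi_gt_three]

theorem result (m : ℕ) (K : Set R3) (hK : Convex ℝ K) (hKc : IsCompact K)
    (hKi : (interior K).Nonempty) (a : R3) (hsym : ∀ x ∈ K, (2 : ℝ) • a - x ∈ K)
    (u : Fin m → R3) (hu : ∀ i, ‖u i‖ = 1) (B : Fin m → Set R3)
    (hB : ∀ i, MeasurableSet (B i)) (hBperp : ∀ i, ∀ b ∈ B i, ⟪u i, b⟫_ℝ = 0)
    (hcov : K ⊆ ⋃ i, cylinder (u i) (B i)) :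
    ENNReal.ofReal (π / (4 * Real.sqrt 2)) * minProjArea K ≤ ∑ i, planeArea (u i) (B i) ∧
      ENNReal.ofReal (1 / 2) * minProjArea K ≤ ∑ i, planeArea (u i) (B i) ∧
      ENNReal.ofReal (5 / 12) ≤
        ∑ i, planeArea (u i) (B i) / planeArea (u i) (planeProj (u i) '' K) :=
  ⟨SymHalf.area_symmetric m K hK hKc hKi a hsym u hu B hB hBperp hcov,
    le_trans (mul_le_mul_left (ENNReal.ofReal_le_ofReal half_lt_const.le) _)
      (SymHalf.area_symmetric m K hK hKc hKi a hsym u hu B hB hBperp hcov),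
    Sym.relative_centred m K hK hKc hKi a hsym u hu B hB hBperp hcov⟩

end Vale.Agent.Results.P243.SymmetricBodies
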